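import Vale.Agent.P011LZ.BP
import Vale.Agent.P011LI.Ext
import Vale.Agent.P011LQ.Sub
import Vale.Agent.P011.Arith.Quad

/-!
Density, approximation, and the real places.
-/

open Matrix NumberField
open scoped ComplexOrder

namespace Vale.Agent.P011LZ

open Vale.Agent.P011LE Vale.Agent.P011LD

theorem den2 : DEN2 := by
  intro k K _ _ _ _ _ V _ _ _ Γ a h s α h1 h2 P hP ⟨x, y, h0⟩
  let b := (Module.finBasis K V).equivFun
  let θ : (K ≃ₐ[k] K) → V → V := fun σ v => b.symm (σ ∘ b v)
  have t1 : ∀ σ v w, θ σ (v + w) = θ σ v + θ σ w := fun σ v w => by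
    simp only [θ, ← map_add]
    exact congrArg _ (funext fun i => by simp)
  have t2 : ∀ σ (c : K) v, θ σ (c • v) = σ c • θ σ v := fun σ c v => by
    simp only [θ, ← map_smul]
    exact congrArg _ (funext fun i => by simp)
  have t3 : ∀ σ v, θ σ⁻¹ (θ σ v) = v := fun σ v => by
    simp only [θ, b.apply_symm_apply]
    exact b.symm_apply_eq.2 (funext fun i => σ.symm_apply_apply _)
  have lp : ∀ P ∈ BP s V, LP fun u : Fin 2 → V => P (u 0, θ s⁻¹ (u 1)) := fun P m => by
    induction m using Algebra.adjoin_induction with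
    | mem _ a =>
      rcases a with ⟨l, rfl⟩ | ⟨l, rfl⟩
      · exact LP.lin (l.comp (LinearMap.proj (φ := fun _ : Fin 2 => V) 0))
      · exact LP.lin (V := Fin 2 → V) ⟨⟨fun u => s (l (θ s⁻¹ (u 1))), fun u v => by
          rw [Pi.add_apply, t1, map_add, map_add]⟩, fun c u => by simp [t2]⟩
    | algebraMap c => exact LP.const c
    | add _ _ _ _ a b => exact a.add b
    | mul _ _ _ _ a b => exact a.mul b
  obtain ⟨_, ⟨z, hz, rfl⟩, e⟩ := (h.dn_conj (U := fun _ : Fin 2 => V) ![1, s]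
    (fun i j e => by
      have := e α h1
      fin_cases i <;> fin_cases j <;> first | rfl | exact absurd this h2 | exact absurd this.symm h2)
    ![id, θ s] (by simp [Fin.forall_fin_two, t1]) (by simp [Fin.forall_fin_two, t2])
    (Fin.forall_fin_two.2 ⟨Function.surjective_id, fun v => ⟨_, t3 s⁻¹ v⟩⟩)).den (lp P hP)
    ⟨![x, θ s y], by simpa [t3] using h0⟩
  exact ⟨z, hz, by simpa [t3] using e⟩

variable {k K : Type} [Field k] [Field K] [Algebra k K]

/-- Two embeddings over the same place differ by an automorphism. -/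
theorem ex_aut [Normal k K] {w w' : K →+* ℂ}
    (h : ∀ x : k, w' (algebraMap k K x) = w (algebraMap k K x)) :
    ∃ σ : K ≃ₐ[k] K, ∀ x, w' x = w (σ x) := by
  let _ : Algebra k ℂ := (w.comp (algebraMap k K)).toAlgebra
  let _ : Algebra K ℂ := w.toAlgebra
  have : IsScalarTower k K ℂ := IsScalarTower.of_algebraMap_eq fun _ => rfl
  let f : K →ₐ[k] ℂ := ⟨w', h⟩
  exact ⟨f.restrictNormal' K, fun x => (f.restrictNormal_commutes K x).symm⟩

theorem reps : REPS := by
  intro k K _ _ _ _ _ o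
  choose w κ h1 h2 h3 using fun i : {φ : k →+* ℂ // ∃ (w : K →+* ℂ) (κ : K ≃ₐ[k] K),
    w.comp (algebraMap k K) = φ ∧ Cj w κ ∧ o κ ≠ 1} => i.2
  refine ⟨_, inferInstance, w, κ, fun i => ⟨h2 i, h3 i⟩, fun i j e => Subtype.ext ?_,
    fun w' κ' a b => ?_⟩
  · rw [← h1, ← h1]
    exact RingHom.ext e
  · obtain ⟨σ, e⟩ := ex_aut (w := w ⟨_, w', κ', rfl, a, b⟩) (w' := w') fun x =>
      (RingHom.congr_fun (h1 ⟨_, w', κ', rfl, a, b⟩) x).symm
    refine ⟨_, σ, e, AlgEquiv.ext fun x => (w ⟨_, w', κ', rfl, a, b⟩).injective ?_⟩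
    rw [AlgEquiv.mul_apply, AlgEquiv.mul_apply, h2, ← e, ← e, a]

theorem dinv : DINV := by
  intro k K _ _ _ n _ _ o M h w w' κ κ' σ h1 h2 h3 h4 ⟨z, hz⟩
  rcases isEmpty_or_nonempty n with e | e
  · exact ⟨z, (Subsingleton.elim _ _ : z • (M κ').1.map w' = z • (M κ).1.map w) ▸ hz⟩
  obtain ⟨z1, e1⟩ := h.mul κ σ
  obtain ⟨z2, e2⟩ := h.mul σ κ'
  have z0 : w z1 ≠ 0 := (map_ne_zero w).2 fun e => Units.ne_zero _ (e1.trans (by rw [e, zero_smul]))
  have e3 : z2 • (M κ).1 = z1 • ((M σ).1 * (st o σ (M κ')).1 * ((M σ).1.map κ)ᵀ) := by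
    rw [← Units.val_mul, e2, ← h4, smul_mul_assoc, smul_comm, ← smul_mul_assoc z1, ← e1,
      Units.val_mul, P011LI.st_out o h2, Matrix.mul_assoc, ← transpose_mul, ← map_mul',
      Units.mul_inv, map_one', transpose_one, Matrix.mul_one]
  have sm : ∀ (c : K) (A : Matrix n n K), (c • A).map w = w c • A.map w := fun c A =>
    Matrix.ext fun _ _ => map_mul w _ _
  obtain ⟨y, hy⟩ : Df w (st o σ (M κ')).1 := by
    have e4 : ∀ A : Matrix n n K, (A.map σ).map w = A.map w' := fun A =>
      Matrix.ext fun _ _ => (h3 _).symm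
    by_cases s : o σ = 1
    · exact ⟨z, by rwa [P011LI.st_in o s, e4]⟩
    · have y0 : z ≠ 0 := fun e => hz.isUnit.ne_zero (by rw [e, zero_smul])
      refine ⟨z⁻¹, ?_⟩
      rw [P011LI.st_out o s, transpose_map, e4, ← transpose_smul, ← inv_eq_right_inv
        (A := z • (M κ').1.map w') (B := z⁻¹ • (M κ')⁻¹.1.map w') (by
          rw [smul_mul_smul_comm, mul_inv_cancel₀ y0, one_smul, ← Matrix.map_mul, Units.mul_inv]
          exact Matrix.map_one _ (map_zero _) (map_one _))]
      exact hz.inv.transpose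
  refine ⟨y / w z1 * w z2, ?_⟩
  rw [mul_smul, ← sm, e3, sm, smul_smul, div_mul_cancel₀ _ z0, Matrix.map_mul, Matrix.map_mul,
    ← smul_mul_assoc, ← mul_smul_comm, show (((M σ).1.map κ)ᵀ).map w = star ((M σ).1.map w) from
      Matrix.ext fun _ _ => h1 _]
  exact ((M σ).isUnit.map w.mapMatrix).posDef_star_right_conjugate_iff.2 hy

/-- Weak approximation at the infinite places. -/
theorem wac {F ι μ : Type} [Field F] [NumberField F] [Finite ι] [Finite μ] (v : ι → F →+* ℂ)
    (hv : Function.Injective fun i => InfinitePlace.mk (v i)) {z : ι → μ → ℂ}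
    (hz : ∀ i j, z i j ∈ closure (Set.range (v i))) :
    z ∈ closure (Set.range fun (t : μ → F) i j => v i (t j)) := by
  have := Fintype.ofFinite ι
  have := Fintype.ofFinite μ
  refine Metric.mem_closure_range_iff.2 fun ε hε => ?_
  choose t ht using fun i j => Metric.mem_closure_range_iff.1 (hz i j) _ (half_pos hε)
  choose f _ hf using fun j => P011.Arith.approxVal ∅ 0 0 (by simp)
    (Function.extend _ (fun i => t i j) 0) (half_pos hε)
  refine ⟨f, (dist_pi_lt_iff hε).2 fun i => (dist_pi_lt_iff hε).2 fun j => ?_⟩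
  have a := hf j (InfinitePlace.mk (v i))
  rw [hv.extend_apply, InfinitePlace.apply, map_sub, ← dist_eq_norm'] at a
  linarith [dist_triangle (z i j) (v i (t i j)) (v i (f j)), ht i j]

theorem mem_cl {F : Type} [Field F] [CharZero F] (v : F →+* ℂ) {z : ℂ}
    (h : z.im = 0 ∨ ∃ α, (v α).im ≠ 0) : z ∈ closure (Set.range v) := by
  have r : ∀ a : ℝ, (a : ℂ) ∈ v.range.topologicalClosure := fun a =>
    map_mem_closure Complex.continuous_ofReal (Rat.denseRange_cast a)
      (by rintro _ ⟨q, rfl⟩; exact ⟨q, by simp⟩)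
  rcases h with h | ⟨α, h⟩
  · exact (Complex.ext rfl h.symm : (z.re : ℂ) = z) ▸ r _
  · have e : z = (z.re - z.im / (v α).im * (v α).re : ℝ) + (z.im / (v α).im : ℝ) * v α :=
      Complex.ext (by simp) (by simp [h])
    exact e ▸ add_mem (r _) (mul_mem (r _) (subset_closure ⟨α, rfl⟩))

theorem apx : APX := by
  intro k K _ _ _ _ _ V _ _ _ Γ a hΓ h ι μ _ _ w κ h1 h2 y P h3 h4 h5
  obtain ⟨F, _, -, hF⟩ := P011LQ.exists_field hΓ
  have := NumberField.of_module_finite k F
  obtain ⟨b, hb⟩ := h.basis (ι := Fin (Module.finrank K V)) (Fintype.card_fin _)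
  have c : ∀ i, ∀ P ∈ BP (κ i) V, ∃ G : (_ → ℂ) → ℂ, Continuous G ∧
      ∀ x, w i (P (x, x)) = G fun j => w i (b.repr x j) := fun i P m => by
    induction m using Algebra.adjoin_induction with
    | mem _ a =>
      have e : ∀ (l : V →ₗ[K] K) x, w i (l x) = ∑ j, w i (b.repr x j) * w i (l (b j)) :=
        fun l x => by
          conv_lhs => rw [← b.sum_repr x]
          simp only [map_sum, map_smul, smul_eq_mul, map_mul]
      rcases a with ⟨l, rfl⟩ | ⟨l, rfl⟩
      · exact ⟨fun z => ∑ j, z j * w i (l (b j)), by fun_prop, e l⟩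
      · exact ⟨fun z => star (∑ j, z j * w i (l (b j))), by fun_prop, fun x => by rw [h1, e]⟩
    | algebraMap c => exact ⟨fun _ => w i c, continuous_const, fun _ => rfl⟩
    | add _ _ _ _ a b =>
      obtain ⟨G, a1, a2⟩ := a
      obtain ⟨H, b1, b2⟩ := b
      exact ⟨G + H, a1.add b1, fun x => by rw [Pi.add_apply, map_add, a2, b2, Pi.add_apply]⟩
    | mul _ _ _ _ a b =>
      obtain ⟨G, a1, a2⟩ := a
      obtain ⟨H, b1, b2⟩ := b
      exact ⟨G * H, a1.mul b1, fun x => by rw [Pi.mul_apply, map_mul, a2, b2, Pi.mul_apply]⟩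
  choose G g1 g2 using fun i m => c i _ (h4 i m)
  have im : ∀ i x, κ i x = x ↔ (w i x).im = 0 := fun i x => by
    rw [← Complex.conj_eq_iff_im, ← (w i).injective.eq_iff, h1]
    rfl
  have q := mem_closure_iff.1 (wac (fun i => (w i).comp (algebraMap F K))
    (fun i j e => h2 i j fun x => ?_) (z := fun i j => w i (b.repr (y i) j)) fun i j =>
      mem_cl _ ?_) {z | ∀ i m, 0 < (G i m (z i)).re} (by
        simp only [Set.ofPred_forall]
        exact isOpen_iInter_of_finite fun i => isOpen_iInter_of_finite fun m =>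
          isOpen_lt continuous_const (by fun_prop)) fun i m => g2 i m _ ▸ h5 i m
  · obtain ⟨_, e, t, rfl⟩ := q
    refine ⟨∑ j, (t j : K) • b j, fun σ s => ?_, fun i m => ?_⟩
    · rw [h.sum s]
      exact Finset.sum_congr rfl fun j _ => by rw [h.smul σ s, hb j σ s, (hF σ).1 s _ (t j).2]
    · rw [g2, b.repr_sum_self]
      exact e i m
  · rcases InfinitePlace.mk_eq_iff.1 e with e | e
    · exact RingHom.congr_fun e (algebraMap k F x)
    · exact ((congrArg _ ((κ i).commutes x).symm).trans (h1 i _)).trans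
        (RingHom.congr_fun e (algebraMap k F x))
  · by_cases s : κ i ∈ Γ
    · refine Or.inl ((im _ _).1 ?_)
      have e := h3 i s
      conv_lhs at e => rw [← b.sum_repr (y i), h.sum s]
      simp only [h.smul _ s, hb _ _ s] at e
      simpa only [b.repr_sum_self] using congrArg (b.repr · j) e
    · by_contra! e
      exact s ((hF _).2 fun x m => (im _ _).2 (e.2 ⟨x, m⟩))

end Vale.Agent.P011LZ
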