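import Vale.Agent.P011LZ.Mv
import Vale.Agent.P011LK.QS
import Vale.Agent.P011LQ.Two
import Vale.Agent.P011.Arith.Schilling

/-!
The game of signs.
-/

namespace Vale.Agent.P011LZ

open Vale.Agent.P011.D4 Vale.Agent.P011.D4.Oct Vale.Agent.P011.MPQ Vale.Agent.P011LD
open Vale.Agent.P011LH Vale.Agent.P011LK Vale.Agent.P011.Arith Equiv

/-- Weak approximation at the real places. -/
theorem wa {k : Type} [Field k] [NumberField k] {n : ℕ} (U : (k →+* ℝ) → Set (Fin n → ℝ))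
    (h1 : ∀ φ, IsOpen (U φ)) (h2 : ∀ φ, (U φ).Nonempty) :
    ∃ x : Fin n → k, ∀ φ : k →+* ℝ, (fun i => φ (x i)) ∈ U φ := by
  choose v hv using h2
  choose ε hε h3 using fun φ => Metric.isOpen_iff.1 (h1 φ) _ (hv φ)
  choose q hq using fun φ i => exists_rat_near (v φ i) (half_pos (hε φ))
  choose x hx using fun i => approx (Set.range Sum.inr) (Set.finite_range _)
    (Sum.elim 0 fun φ => (q φ i : k)) (Sum.elim 1 fun φ => ε φ / 2) (by
      rintro (_ | φ)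
      exacts [one_pos, half_pos (hε φ)])
  refine ⟨x, fun φ => h3 φ ((dist_pi_lt_iff (hε φ)).2 fun i => ?_)⟩
  have a := hx i (.inr φ) ⟨φ, rfl⟩
  have b := hq φ i
  rw [plAbv_inr, map_sub, Sum.elim_inr, Sum.elim_inr, map_ratCast, abs_lt] at a
  rw [abs_lt] at b
  rw [Real.dist_eq, abs_lt]
  constructor <;> linarith

theorem neg_val {β u p q : ℝ} (hβ : β < 0) (hu : u < 0) (hp : p < 0) (hq : 0 < q) (h : u ≠ p) :
    ∃ τ : ℝ, (τ ^ 2 - β * u) * (τ ^ 2 - β * p) * (τ ^ 2 - β * q) < 0 := by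
  have a : 0 < β * ((u + p) / 2) := mul_pos_of_neg_of_neg hβ (by linarith)
  refine ⟨√(β * ((u + p) / 2)), ?_⟩
  rw [Real.sq_sqrt a.le]
  have b : 0 < (β * (u - p) / 2) ^ 2 := by
    have := mul_ne_zero hβ.ne (sub_ne_zero.2 h)
    positivity
  nlinarith [mul_pos b (sub_pos.2 ((mul_neg_of_neg_of_pos hβ hq).trans a))]

variable {k K : Type} [Field k] [Field K] [Algebra k K] [CharZero K] {a b c : Kˣ} {d : K}
  {y : RR K} {π : (K ≃ₐ[k] K) →* Perm (Fin 3)} {w : K →+* ℂ} {κ : K ≃ₐ[k] K}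

omit [CharZero K] in
theorem all_eq (h : Md π a b c d y) (hπ : ∃ σ, π σ * π σ ≠ 1) {i : Fin 3} (e : y i = y (i + 1)) :
    y i ^ 3 = 1 := by
  obtain ⟨σ, hσ⟩ := hπ
  have h1 : ∀ j, σ (y j) = y (π σ j) := fun j => by rw [← ac_perm (π := π σ), h.fy]
  have h2 : y (π σ i) = y (π σ (i + 1)) := by rw [← h1, ← h1, e]
  have h3 : ∀ ρ : Perm (Fin 3), ρ * ρ ≠ 1 → (∀ j, ρ j = j + 1) ∨ ∀ j, ρ j = j + 2 := by decide
  have h4 : y (i + 2) = y i := by
    rcases h3 _ hσ with s | s <;> rw [s, s] at h2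
    · rw [e, h2, f11]
    · rw [h2, f12]
  rw [← h.nm, ← prod3 y i, ← e, h4]
  ring

theorem ex_neg (h : Md π a b c d y) (hπ : ∃ σ, π σ * π σ ≠ 1) (hk : Cc w κ) (hb : (w b).re < 0)
    (hy : ¬∀ i, (w (y i)).im = 0 → 0 < (w (y i)).re) :
    ∃ τ : ℝ, (∏ i, ((τ : ℂ) ^ 2 - w b * w (y i))).re < 0 := by
  simp only [not_forall, not_lt] at hy
  obtain ⟨i, h1, h2⟩ := hy
  have h3 : κ (∑ j, y j) = ∑ j, y j := by
    rw [map_sum, ← (π κ).symm.sum_comp]
    exact Finset.sum_congr rfl fun j _ => congrFun (h.fy κ) j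
  have h4 : ∑ j, y j = y i + y (i + 1) + y (i + 2) := by
    fin_cases i <;> simp [Fin.sum_univ_three] <;> ring
  rw [fix_iff hk, h4] at h3
  have h5 := congrArg w ((prod3 y i).trans h.nm)
  have h6 := (fix_iff hk).1 (h.fb κ)
  simp only [Fin.prod_univ_three, fun τ : ℝ => (prod3 (fun i => (τ : ℂ) ^ 2 - w b * w (y i)) i).symm]
  have n : ∀ j, y j = y (j + 1) → y j = y i → False := fun j e e' => by
    have := congrArg (fun z => (w z).re) (e' ▸ all_eq h hπ e)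
    simp only [map_one, pow_three, Complex.mul_re, Complex.mul_im, h1, map_mul,
      Complex.one_re] at this
    nlinarith [mul_self_nonneg (w (y i)).re]
  have n1 : w (y i) ≠ w (y (i + 1)) := fun e => n i (w.injective e) rfl
  have n2 : w (y i) ≠ w (y (i + 2)) := fun e =>
    n (i + 2) (by rw [f21]; exact (w.injective e).symm) (w.injective e).symm
  simp only [map_add, map_mul, map_one] at h3 h5
  generalize w (y i) = u, w (y (i + 1)) = p, w (y (i + 2)) = q, w b = β at *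
  obtain ⟨u, rfl⟩ : ∃ t : ℝ, u = t := ⟨u.re, Complex.ext rfl h1⟩
  obtain ⟨β, rfl⟩ : ∃ t : ℝ, β = t := ⟨β.re, Complex.ext rfl h6⟩
  have a1 := congrArg Complex.re h5
  have a2 := congrArg Complex.im h5
  simp only [Complex.mul_re, Complex.mul_im, Complex.add_im, Complex.ofReal_re, Complex.ofReal_im,
    Complex.one_re, Complex.one_im, zero_mul, sub_zero, add_zero, zero_add] at a1 a2 h2 h3 hb
  have u0 : u < 0 := h2.lt_of_ne fun e => by simp [e] at a1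
  have a3 : p.im = 0 := by
    by_contra e
    have : q.re = p.re := mul_left_cancel₀ (mul_ne_zero u0.ne e)
      (by linear_combination a2 - u * p.re * h3)
    rw [this, show q.im = -p.im by linarith] at a1
    nlinarith [mul_self_nonneg p.re, mul_self_nonneg p.im]
  obtain ⟨p, rfl⟩ : ∃ t : ℝ, p = t := ⟨p.re, Complex.ext rfl a3⟩
  obtain ⟨q, rfl⟩ : ∃ t : ℝ, q = t := ⟨q.re, Complex.ext rfl (by simpa using h3)⟩
  simp only [Complex.ofReal_re, Complex.ofReal_im, mul_zero, sub_zero] at a1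
  norm_cast at n1 n2 ⊢
  rcases mul_neg_iff.1 (show p * q < 0 by nlinarith) with ⟨s, t⟩ | ⟨s, t⟩
  · simpa only [mul_right_comm] using neg_val hb u0 t s n2
  · exact neg_val hb u0 s t n1

variable [NumberField k] [IsAlgClosure k K]

omit [CharZero K] in
theorem down {x : K} (h : ∀ σ : K ≃ₐ[k] K, σ x = x) : ∃ z : k, algebraMap k K z = x :=
  (InfiniteGalois.mem_range_algebraMap_iff_fixed x).2 h

omit [CharZero K] in
theorem ov_eq {φ : k →+* ℝ} {w' : K →+* ℂ} (h1 : Ov φ w) (h2 : Ov φ w') {x : K}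
    (h : ∀ σ : K ≃ₐ[k] K, σ x = x) : w x = w' x := by
  obtain ⟨z, rfl⟩ := down h
  rw [h1, h2]

/-- The second constant can be made totally negative. -/
theorem step1 (h : Md π a b c d y) : ∃ b' c' : Kˣ, Md π a b' c' d y ∧
    Iso ⊤ (mo π d y : _ → WW a b' c' → _) (mo π d y : _ → WW a b c → _) ∧
    ∀ (φ : k →+* ℝ) (w : K →+* ℂ), Ov φ w → (w b').re < 0 := by
  rcases isEmpty_or_nonempty (k →+* ℝ) with e | ⟨⟨φ₀⟩⟩
  · exact ⟨b, c, h, Iso.refl _, e.elim⟩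
  obtain ⟨β, hβ⟩ := down h.fb
  obtain ⟨γ, hγ⟩ := down h.fc
  obtain ⟨x, hx⟩ := wa (fun φ : k →+* ℝ => {v : Fin 3 → ℝ |
    φ β * v 0 ^ 2 + φ γ * v 1 ^ 2 - φ β * φ γ * v 2 ^ 2 < 0})
    (fun φ => isOpen_lt (by fun_prop) continuous_const) fun φ => by
      have b0 : φ β ≠ 0 := (map_ne_zero φ).2 fun e => b.ne_zero (by rw [← hβ, e, map_zero])
      have c0 : φ γ ≠ 0 := (map_ne_zero φ).2 fun e => c.ne_zero (by rw [← hγ, e, map_zero])
      rcases b0.lt_or_gt with s | s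
      · exact ⟨![1, 0, 0], by simpa using s⟩
      rcases c0.lt_or_gt with t | t
      · exact ⟨![0, 1, 0], by simpa using t⟩
      · exact ⟨![0, 0, 1], by simpa using mul_pos s t⟩
  have h1 : ∀ φ : k →+* ℝ, φ (β * x 0 ^ 2 + γ * x 1 ^ 2 - β * γ * x 2 ^ 2) < 0 := fun φ => by
    simpa using hx φ
  obtain ⟨c', h2, h3⟩ := cb (b' := Units.mk0 _ ((map_ne_zero (algebraMap k K)).2
    ((map_ne_zero φ₀).1 (h1 φ₀).ne))) h
    ⟨⟨0, 0, algebraMap k K (x 0), 0⟩, ⟨algebraMap k K (x 1), 0, algebraMap k K (x 2), 0⟩⟩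
    (fun σ => by apply ext8 <;> simp [cm, cq]) rfl rfl
    (by simp [Oct.norm, nrd, hβ, hγ]; ring)
  exact ⟨_, c', h2, h3, fun φ w hw => by
    simpa only [Units.val_mk0, hw _, Complex.ofReal_re] using h1 φ⟩

omit [IsAlgClosure k K] in
/-- The sign of the third constant can be changed where some `y i` is negative. -/
theorem step2 (h : Md π a b c d y) (hπ : ∃ σ, π σ * π σ ≠ 1)
    (hb : ∀ (φ : k →+* ℝ) (w : K →+* ℂ), Ov φ w → (w b).re < 0) {W : (k →+* ℝ) → K →+* ℂ}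
    {κ : (k →+* ℝ) → K ≃ₐ[k] K} (h1 : ∀ φ, Ov φ (W φ)) (h2 : ∀ φ, Cc (W φ) (κ φ))
    (ε : (k →+* ℝ) → Prop) (h3 : ∀ φ, ε φ → ¬∀ i, (W φ (y i)).im = 0 → 0 < (W φ (y i)).re) :
    ∃ c' : Kˣ, Md π a b c' d y ∧
      Iso ⊤ (mo π d y : _ → WW a b c → _) (mo π d y : _ → WW a b c' → _) ∧
      ∀ φ, ∃ r : ℝ, (W φ c').re = (W φ c).re * r ∧ (ε φ → r < 0) ∧ (¬ε φ → 0 < r) := by
  classical
  rcases isEmpty_or_nonempty (k →+* ℝ) with e | ⟨⟨φ₀⟩⟩
  · exact ⟨c, h, Iso.refl _, e.elim⟩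
  obtain ⟨x, hx⟩ := wa (fun φ : k →+* ℝ => {v : Fin 1 → ℝ | (if ε φ then 1 else -1) *
    (∏ i, ((v 0 : ℂ) ^ 2 - W φ b * W φ (y i))).re < 0})
    (fun φ => isOpen_lt (by fun_prop) continuous_const) fun φ => by
      split_ifs with s
      · obtain ⟨τ, t⟩ := ex_neg h hπ (h2 φ) (hb φ _ (h1 φ)) (h3 φ s)
        exact ⟨fun _ => τ, by simpa only [Set.mem_ofPred_eq, one_mul] using t⟩
      · have e := congrArg (W φ) h.nm
        have t := hb φ _ (h1 φ)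
        obtain ⟨β, hβ⟩ : ∃ t : ℝ, W φ b = t :=
          ⟨_, Complex.ext rfl ((fix_iff (h2 φ)).1 (h.fb _))⟩
        refine ⟨0, ?_⟩
        simp only [map_mul, map_one] at e
        rw [Set.mem_ofPred_eq, Fin.prod_univ_three, show _ * _ * _ = -W φ b ^ 3 by
          simp only [Pi.zero_apply, Complex.ofReal_zero]
          linear_combination (-W φ b ^ 3) * e, hβ]
        rw [hβ, Complex.ofReal_re] at t
        norm_cast
        simpa using Odd.pow_neg (by decide) t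
  have h4 : ∀ φ, (if ε φ then 1 else -1) *
      (W φ (∏ i, (algebraMap k K (x 0) ^ 2 - b * y i))).re < 0 := fun φ => by
    simpa only [map_prod, map_sub, map_pow, map_mul, h1 φ _, Set.mem_ofPred_eq] using hx φ
  obtain ⟨h5, h6⟩ := lm (c' := c * Units.mk0 (∏ i, (algebraMap k K (x 0) ^ 2 - b * y i))
    fun e => (h4 φ₀).ne (by rw [e]; simp)) h (fun σ => σ.commutes (x 0)) rfl
  refine ⟨_, h5, h6, fun φ => ⟨_, ?_, fun s => by simpa only [if_pos s, one_mul] using h4 φ,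
    fun s => by simpa only [if_neg s, neg_one_mul, neg_lt_zero] using h4 φ⟩⟩
  rw [Units.val_mul, map_mul, Complex.mul_re, (fix_iff (h2 φ)).1 (h.fc _), zero_mul, sub_zero,
    Units.val_mk0]

theorem not_an' (h : Md π a b c d y)
    (hc : ∀ (φ : k →+* ℝ) (w : K →+* ℂ), Ov φ w → (w a).re < 0 → 0 < (w c).re) :
    ¬An (mo π d y : _ → WW a b c → _) := fun hA => by
  obtain ⟨α, hα⟩ := down h.fa
  obtain ⟨β, hβ⟩ := down h.fb
  obtain ⟨γ, hγ⟩ := down h.fc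
  have n : ∀ {x : k} {z : Kˣ}, algebraMap k K x = z → x ≠ 0 := fun {x z} e s =>
    z.ne_zero (by rw [← e, s, map_zero])
  obtain ⟨x, z, s, t, e⟩ := Sch.quaternion_norm (Units.mk0 α (n hα)) (Units.mk0 β (n hβ))
    (Units.mk0 γ (n hγ)) fun φ h1 _ => by
      obtain ⟨w, -, -, hw⟩ := P011LQ.exists_cj (K := K) φ
      simpa only [← hγ, hw, Complex.ofReal_re, Units.val_mk0] using hc φ w hw (by rwa [← hα, hw])
  replace e := congrArg (algebraMap k K) e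
  simp only [Units.val_mk0, map_add, map_sub, map_mul, map_pow, hα, hβ, hγ] at e
  obtain ⟨c', h2, h3⟩ := cb (b' := 1) h ⟨0, (c : K)⁻¹ • ⟨algebraMap k K x, algebraMap k K z,
    algebraMap k K s, algebraMap k K t⟩⟩ (fun σ => by apply ext8 <;> simp [cm, cq, h.fc]) rfl rfl (by
      rw [Oct.norm, nrd_smul, nrd, nrd, ← e]
      simp [sq])
  exact not_an h2 (h3.an hA)

/-- The game of signs. -/
theorem sgn : SGN := by
  intro k K _ _ _ _ _ π a b c d y _ h hπ hA hQ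
  have : CharZero K := charZero_of_injective_algebraMap (algebraMap k K).injective
  have := IsAlgClosure.isAlgClosed k (K := K)
  obtain ⟨b', c₁, m1, i1, hb⟩ := step1 h
  choose W κ h1 h2 h3 using fun φ : k →+* ℝ => show ∃ (w : K →+* ℂ) (κ : K ≃ₐ[k] K),
      Ov φ w ∧ Cc w κ ∧ ((w a).re < 0 → ¬Qs (mo π d y κ : WW a b' c₁ → _)) by
    obtain ⟨w, κ, e1, e2⟩ := P011LQ.exists_cj (K := K) φ
    by_cases s : (w a).re < 0
    · obtain ⟨w', κ', e3, e4, e5⟩ := hQ φ w e2 s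
      exact ⟨w', κ', e3, e4, fun _ q => e5 (i1.qs trivial q)⟩
    · exact ⟨w, κ, e2, e1, fun t => absurd t s⟩
  have c0 : ∀ φ, (W φ c₁).re ≠ 0 := fun φ e => (map_ne_zero (W φ)).2 c₁.ne_zero
    (Complex.ext e ((fix_iff (h2 φ)).1 (m1.fc _)))
  by_cases hP : ∃ φ, (W φ a).re < 0 ∧ ∀ i, (W φ (y i)).im = 0 → 0 < (W φ (y i)).re
  · obtain ⟨c', m2, i2, h4⟩ := step2 m1 hπ hb h1 h2 (fun φ => (W φ a).re < 0 ∧ 0 < (W φ c₁).re)
      fun φ s t => h3 φ s.1 (qs_of m1 (h2 φ) s.1 (hb φ _ (h1 φ)) s.2 t)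
    refine ⟨b', c', m2, ⟨fun φ w hw s => ⟨hb φ w hw, ?_⟩, hP.imp fun φ s => ⟨W φ, h1 φ, s⟩⟩,
      i1.symm.trans i2⟩
    obtain ⟨r, e, r1, r2⟩ := h4 φ
    rw [ov_eq hw (h1 φ) h.fa] at s
    rw [ov_eq hw (h1 φ) m2.fc, e]
    rcases (c0 φ).lt_or_gt with t | t
    exacts [mul_neg_of_neg_of_pos t (r2 fun u => t.not_gt u.2), mul_neg_of_pos_of_neg t (r1 ⟨s, t⟩)]
  · obtain ⟨c', m2, i2, h4⟩ := step2 m1 hπ hb h1 h2 (fun φ => (W φ a).re < 0 ∧ (W φ c₁).re < 0)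
      fun φ s t => hP ⟨φ, s.1, t⟩
    refine absurd (i2.symm.an (i1.an hA)) (not_an' m2 fun φ w hw s => ?_)
    obtain ⟨r, e, r1, r2⟩ := h4 φ
    rw [ov_eq hw (h1 φ) h.fa] at s
    rw [ov_eq hw (h1 φ) m2.fc, e]
    rcases (c0 φ).lt_or_gt with t | t
    exacts [mul_pos_of_neg_of_neg t (r1 ⟨s, t⟩), mul_pos t (r2 fun u => t.not_gt u.2)]

end Vale.Agent.P011LZ
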