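import Vale.Agent.P011LE.IF

/-!
Polynomial maps.
-/

open Matrix

namespace Vale.Agent.P011LZ

open Vale.Agent.P011LE

variable {k K : Type} [Field k] [Field K] [Algebra k K] {X U U' U'' V : Type} [AddCommGroup U]
  [Module K U] [AddCommGroup U'] [Module K U'] [AddCommGroup U''] [Module K U''] [AddCommGroup V]
  [Module K V]

/-- The coordinates of `f` belong to the algebra `A`. -/
def PA (A : Subalgebra K (X → K)) (f : X → U) : Prop := ∀ l : U →ₗ[K] K, (fun x => l (f x)) ∈ A

/-- Polynomial maps. -/
abbrev P1 (f : V → U) : Prop := PA (Po K V) f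

/-- Polynomial maps in a point and in the conjugate of a second point. -/
abbrev P2 (s : K ≃ₐ[k] K) (f : V × V → U) : Prop := PA (BP s V) f

section

variable {A : Subalgebra K (X → K)} {f g : X → U}

theorem PA.mem {f : X → K} (h : PA A f) : f ∈ A := h LinearMap.id

theorem PA.of_mem {f : X → K} (h : f ∈ A) : PA A f := fun l => by
  have e : (fun x => l (f x)) = l 1 • f := funext fun x => by
    rw [Pi.smul_apply, smul_eq_mul, mul_comm, ← smul_eq_mul, ← map_smul, smul_eq_mul, mul_one]
  exact e ▸ A.smul_mem h _

theorem PA.const (u : U) : PA A fun _ => u := fun l => A.algebraMap_mem (l u)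

theorem PA.lin (h : PA A f) (L : U →ₗ[K] U') : PA A fun x => L (f x) := fun l => h (l.comp L)

theorem PA.add (h : PA A f) (h' : PA A g) : PA A fun x => f x + g x := fun l => by
  simp only [map_add]
  exact A.add_mem (h l) (h' l)

theorem PA.neg (h : PA A f) : PA A fun x => -f x := h.lin (-LinearMap.id)

theorem PA.sub (h : PA A f) (h' : PA A g) : PA A fun x => f x - g x := by
  simpa only [sub_eq_add_neg] using h.add h'.neg

theorem PA.csmul (h : PA A f) (c : K) : PA A fun x => c • f x := h.lin (c • LinearMap.id)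

theorem PA.sum {ι : Type} (s : Finset ι) {f : ι → X → U} (h : ∀ i ∈ s, PA A (f i)) :
    PA A fun x => ∑ i ∈ s, f i x := fun l => by
  have e : (fun x => l (∑ i ∈ s, f i x)) = ∑ i ∈ s, fun x => l (f i x) :=
    funext fun x => by rw [map_sum, Finset.sum_apply]
  exact e ▸ A.sum_mem fun i m => h i m l

theorem PA.smul {c : X → K} (h : PA A c) (h' : PA A f) : PA A fun x => c x • f x := fun l => by
  simp only [map_smul, smul_eq_mul]
  exact A.mul_mem h.mem (h' l)

theorem PA.bil [FiniteDimensional K U] {g : X → U'} (h : PA A f) (h' : PA A g)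
    (B : U →ₗ[K] U' →ₗ[K] U'') : PA A fun x => B (f x) (g x) := by
  have e : (fun x => B (f x) (g x)) = fun x => ∑ i, (Module.finBasis K U).coord i (f x) •
      B (Module.finBasis K U i) (g x) := funext fun x => by
    conv_lhs => rw [← (Module.finBasis K U).sum_repr (f x)]
    simp only [map_sum, map_smul, LinearMap.sum_apply, LinearMap.smul_apply,
      Module.Basis.coord_apply]
  exact e ▸ PA.sum _ fun i _ => (h.lin _).smul (h'.lin _)

theorem PA.mul {R : Type} [Ring R] [Algebra K R] [FiniteDimensional K R] {f g : X → R} (h : PA A f)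
    (h' : PA A g) : PA A fun x => f x * g x := h.bil h' (LinearMap.mul K R)

theorem PA.pow {R : Type} [Ring R] [Algebra K R] [FiniteDimensional K R] {f : X → R} (h : PA A f)
    (n : ℕ) : PA A fun x => f x ^ n := by
  induction n with
  | zero => simpa only [pow_zero] using PA.const (1 : R)
  | succ n ih => simpa only [pow_succ] using ih.mul h

theorem PA.prod {ι : Type} (s : Finset ι) {f : ι → X → K} (h : ∀ i ∈ s, PA A (f i)) :
    PA A fun x => ∏ i ∈ s, f i x := PA.of_mem (by
  simp only [← Finset.prod_apply]
  exact A.prod_mem fun i m => (h i m).mem)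

theorem PA.app [FiniteDimensional K U] {F : X → U →ₗ[K] U'} (h : PA A F) (h' : PA A f) :
    PA A fun x => F x (f x) := h'.bil h LinearMap.applyₗ

theorem PA.pair {g : X → U'} (h : PA A f) (h' : PA A g) : PA A fun x => (f x, g x) := by
  simpa using (h.lin (LinearMap.inl K U U')).add (h'.lin (LinearMap.inr K U U'))

theorem PA.pi {ι : Type} [Fintype ι] {f : X → ι → U} (h : ∀ i, PA A fun x => f x i) : PA A f := by
  classical
  simpa only [LinearMap.single_apply, Finset.univ_sum_single] using
    PA.sum Finset.univ fun i _ => (h i).lin (LinearMap.single K (fun _ => U) i)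

theorem PA.proj {ι : Type} {f : X → ι → U} (h : PA A f) (i : ι) : PA A fun x => f x i :=
  h.lin (LinearMap.proj (φ := fun _ => U) i)

variable {m n p : Type}

theorem PA.entry {f : X → Matrix m n K} (h : PA A f) (i : m) (j : n) : PA A fun x => f x i j :=
  h.lin (entryLinearMap K K i j)

theorem PA.mat [Fintype m] [Fintype n] {f : X → Matrix m n K} (h : ∀ i j, PA A fun x => f x i j) :
    PA A f := PA.pi (U := n → K) fun i => PA.pi (h i)

theorem PA.mmul [Fintype m] [Fintype n] [Fintype p] {f : X → Matrix m n K} {g : X → Matrix n p K}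
    (h : PA A f) (h' : PA A g) : PA A fun x => f x * g x :=
  PA.mat fun i j => PA.sum _ fun l _ => (h.entry i l).mul (h'.entry l j)

theorem PA.transpose {f : X → Matrix m n K} (h : PA A f) : PA A fun x => (f x)ᵀ :=
  h.lin (transposeLinearEquiv m n K K).toLinearMap

variable [Fintype n] [DecidableEq n] {f : X → Matrix n n K}

theorem PA.det (h : PA A f) : PA A fun x => (f x).det := by
  simp only [det_apply']
  exact PA.sum _ fun σ _ => (PA.const _).mul (PA.prod _ fun i _ => h.entry _ _)

theorem PA.adj (h : PA A f) : PA A fun x => (f x).adjugate := PA.mat fun i j => by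
  simp only [adjugate_apply]
  refine PA.det (PA.mat fun a b => ?_)
  simp only [updateRow_apply]
  split_ifs
  exacts [PA.const _, h.entry _ _]

end

theorem P1.id : P1 (K := K) fun x : V => x := fun l => Algebra.subset_adjoin ⟨l, rfl⟩

/-- Substitution of a polynomial map. -/
theorem P1.comp {A : Subalgebra K (X → K)} {f : V → U} {g : X → V} (h : P1 (K := K) f)
    (h' : PA A g) : PA A fun x => f (g x) := fun l =>
  (Subalgebra.mem_comap _ (AlgHom.pi fun x => Pi.evalAlgHom K (fun _ => K) (g x)) _).1
    (Algebra.adjoin_le (by rintro _ ⟨l, rfl⟩; exact h' l) (h l))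

variable {s : K ≃ₐ[k] K}

theorem P2.fst : P2 s fun x : V × V => x.1 := fun l => Algebra.subset_adjoin (Or.inl ⟨l, rfl⟩)

theorem P1.fst {f : V → U} (h : P1 (K := K) f) : P2 s fun x : V × V => f x.1 := h.comp P2.fst

theorem P1.snd {f : V → U} (h : P1 (K := K) f) {θ : U → U'} (h1 : ∀ u v, θ (u + v) = θ u + θ v)
    (h2 : ∀ (c : K) u, θ (c • u) = s c • θ u) : P2 s fun x : V × V => θ (f x.2) := fun l => by
  have e : ∀ φ ∈ Po K V, (fun x : V × V => s (φ x.2)) ∈ BP s V := fun φ m => by
    induction m using Algebra.adjoin_induction with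
    | mem _ a =>
      obtain ⟨l, rfl⟩ := a
      exact Algebra.subset_adjoin (Or.inr ⟨l, rfl⟩)
    | algebraMap c => exact (BP s V).algebraMap_mem (s c)
    | add _ _ _ _ a b =>
      simp only [Pi.add_apply, map_add]
      exact (BP s V).add_mem a b
    | mul _ _ _ _ a b =>
      simp only [Pi.mul_apply, map_mul]
      exact (BP s V).mul_mem a b
  simpa using e _ (h ⟨⟨fun u => s.symm (l (θ u)), fun u v => by rw [h1, map_add, map_add]⟩,
    fun c u => by simp [h2]⟩)

end Vale.Agent.P011LZ
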