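import Vale.Agent.P011L.Defs

/-!
The Margulis-Platonov conjecture: the conclusion, in three short definitions. Only definitions.
-/

open Matrix Vale.Agent.P011L

namespace Vale.Agent.P011LZ

/-- There is a homomorphism `δ` from the group `Γ` to the product of the topological groups `H i`
whose components are described by the relation `R`, and every noncentral normal subgroup of `Γ` is
the preimage under `δ` of an open normal subgroup of the product. -/
def Pre {Γ I : Type} [Group Γ] (H : I → Type) [∀ i, Group (H i)] [∀ i, TopologicalSpace (H i)]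
    (R : Γ → ∀ i, H i → Prop) : Prop :=
  ∃ δ : Γ →* ∀ i, H i, (∀ g i, R g i (δ g i)) ∧
    ∀ N : Subgroup Γ, N.Normal → ¬N ≤ Subgroup.center Γ →
      ∃ W : Subgroup (∀ i, H i), IsOpen (W : Set (∀ i, H i)) ∧ W.Normal ∧ N = W.comap δ

/-- The same for a group `Γ` of matrices over `k`, groups `H i` of matrices over topological fields
`L i` over `k`, and the diagonal homomorphism. -/
def Diag {k : Type} [Field k] {m : Type} [Fintype m] [DecidableEq m] {I : Type} (L : I → Type)
    [∀ i, Field (L i)] [∀ i, Algebra k (L i)] [∀ i, TopologicalSpace (L i)]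
    (Γ : Subgroup (GL m k)) (H : ∀ i, Subgroup (GL m (L i))) : Prop :=
  Pre (fun i => H i) fun (g : Γ) i h => h.1.1 = g.1.1.map (algebraMap k (L i))

/-- The statement of the conjecture for `G`: the group `G(k)` and the product `H_A` of the groups
`G(k_v)`, `v` in `A(G)`. -/
def MPG (k : Type) [Field k] {K : Type} [Field K] [Algebra k K] {m : Type} [Fintype m]
    [DecidableEq m] (G : Subgroup (GL m K)) : Prop :=
  Diag (fun v : AG k G => v.abv.Completion) (Pts k G k) fun v => Pts k G v.abv.Completion

end Vale.Agent.P011LZ
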