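import Vale.Agent.P011LH.Gq
import Vale.Agent.P011LR.Cyc

/-!
The moves which change the constants of the model.
-/

namespace Vale.Agent.P011LZ

open Vale.Agent.P011.D4 Vale.Agent.P011.D4.Oct Vale.Agent.P011.MPQ Vale.Agent.P011LD
open Vale.Agent.P011LH Equiv

variable {k K : Type} [Field k] [Field K] [Algebra k K] [CharZero K] {a b c b' c' : Kˣ} {d : K}
  {y : RR K} {π : (K ≃ₐ[k] K) →* Perm (Fin 3)}

/-- The twisting elements as octonions. -/
def eo (d t : K) : Oct a b c := ((1 + t) / 2) • 1 + ((1 - t) / (2 * d)) • gi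

omit [CharZero K] in
theorem eo_eq (t : K) : (eo d t : Oct a b c) = ⟨et d t, 0⟩ := by
  apply ext8 <;> simp [eo, et, gi]

theorem tw_eq (h : Md π a b c d y) (x : WW a b c) (i : Fin 3) :
    tw c d y x i = star (eo d (y (i + 1))) * x i * eo d (y (i + 2)) := by
  have h0 := h.y0 i
  have e : y (i + 1) * y (i + 2) = (y i)⁻¹ :=
    eq_inv_of_mul_eq_one_right (by rw [← mul_assoc, prod3, h.nm])
  refine Oct.ext (by simp [tw, gq, eo_eq]) ?_
  simp only [tw, gq, eo_eq, snd_mul, fst_mul, fst_star, snd_star, neg_zero, zero_mul, add_zero,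
    zero_add, nrd_et h.sq]
  rw [mul_assoc, star_et, star_et, et_mul (by rw [neg_sq, h.sq]), e, ← star_et,
    star_et' h.sq (inv_ne_zero h0), inv_inv, one_div, mul_smul_comm]

/-- Isomorphisms which fix `i`. -/
theorem iso_hm (h : Md π a b c d y) (h' : Md π a b' c' d y) {Φ : Oct a b' c' → Oct a b c}
    (h1 : Hm (1 : K ≃ₐ[k] K) Φ) (h2 : Φ gi = gi) (h3 : ∀ (σ : K ≃ₐ[k] K) x, cm σ (Φ x) = Φ (cm σ x)) :
    Iso ⊤ (mo π d y : _ → WW a b' c' → _) (mo π d y : _ → WW a b c → _) := by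
  have e : ∀ (x : WW a b' c') i, as 1 (fun _ => Φ) x i = Φ (x i) := fun x i => cj_one _
  have e1 : ∀ σ (x : WW a b' c'), as 1 (fun _ => Φ) (std π σ x) = std π σ (as 1 (fun _ => Φ) x) :=
    fun σ x => ext_perm (π σ) fun i => by rw [e, std_perm, std_perm, e, h1.cj, h3]
  have e2 : ∀ t, Φ (eo d t) = eo d t := fun t => by
    rw [eo, h1.add, h1.smul, h1.smul, h1.one, h2]
    rfl
  refine ⟨_, ⟨1, h1.sm 1⟩, fun σ _ => Pr.of_eq fun x => ?_⟩
  by_cases s : σ d = d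
  · rw [mo_pos s, mo_pos s, e1]
  · rw [mo_neg s, mo_neg s, ← e1]
    funext i
    rw [e, tw_eq h, tw_eq h', e, h1.mul, h1.mul, h1.star, e2, e2]

/-- The change of the second generator. -/
theorem cb [Algebra.IsAlgebraic k K] (h : Md π a b c d y) (j : Oct a b c)
    (h1 : ∀ σ : K ≃ₐ[k] K, cm σ j = j) (h2 : j.fst.re = 0) (h3 : j.fst.imI = 0)
    (h4 : norm j = -b') : ∃ c' : Kˣ, Md π a b' c' d y ∧
      Iso ⊤ (mo π d y : _ → WW a b' c' → _) (mo π d y : _ → WW a b c → _) := by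
  have H := fun σ : K ≃ₐ[k] K => hm_cm (h.fa σ) (h.fb σ) (h.fc σ)
  have n : ∀ (σ : K ≃ₐ[k] K) (x : Oct a b c), cm σ x = x → σ (-norm x) = -norm x := fun σ x e => by
    rw [map_neg, ← (H σ).norm, e]
  have i1 : ∀ σ : K ≃ₐ[k] K, cm σ (gi : Oct a b c) = gi := fun σ => by
    apply ext8 <;> simp [cm, cq, gi]
  have B : Basic gi j a b' := ⟨trip_std.triple.i_one, by simp [bil_eq, h2],
    by simp [bil_eq, gi, h3], trip_std.triple.norm_i, h4⟩
  have k1 : ∀ σ : K ≃ₐ[k] K, cm σ (gi * j) = gi * j := fun σ => by rw [(H σ).mul, i1, h1]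
  have k2 : bil gi (gi * j) = 0 := by
    simpa [bil_comm 1, B.j_one] using bil_mul_mul_left gi 1 j
  have k3 : bil j (gi * j) = 0 := by
    simpa [bil_comm 1, B.i_one] using bil_mul_mul_right j 1 gi
  obtain ⟨l, l1, l2, l3⟩ := P011LR.perp' (Γ := ⊤) (Q := fun σ : K ≃ₐ[k] K => cm σ)
    ⟨fun σ _ => (H σ).add, fun σ _ => (H σ).smul, fun _ _ _ _ => cm_mul, op_cm ⊤⟩
    (fun σ _ => (H σ).bil) (v := ![1, gi, j, gi * j])
    (by simp [Fin.forall_fin_succ, Fx, i1, h1, k1, (H _).one])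
    (by simp [Fin.forall_fin_succ, B.i_one, bil_comm 1, B.j_one, B.ij_one, B.i_j, bil_comm j gi, k2,
      k3, bil_comm (gi * j) gi, bil_comm (gi * j) j])
    (by simp [Fin.forall_fin_succ, B.norm_i, h4, Oct.norm_mul])
  obtain ⟨Φ, e1, e2, e3, -⟩ := exists_emb (Triple.trip (c' := Units.mk0 _ (neg_ne_zero.2 l2))
    ⟨B, ⟨l3 0, l3 1, l3 2, l3 3⟩, (neg_neg _).symm⟩)
  have h' : Md π a b' (Units.mk0 _ (neg_ne_zero.2 l2)) d y :=
    ⟨h.fa, fun σ => by simpa [h4] using n σ j (h1 σ), fun σ => n σ l (l1 σ trivial), h.sq, h.fy, h.nm⟩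
  refine ⟨_, h', iso_hm h h' ⟨Φ.map_add, Φ.map_smul, Φ.bijective, e2, e3⟩ ?_ fun σ x => ?_⟩
  · simp [e1, emb, qemb, gi]
  · simp only [e1, emb, qemb, (H σ).add, (H σ).smul, (H σ).mul, (H σ).one, i1, h1, l1 σ trivial]
    rfl

/-- The quaternions of the move. -/
def pq (t d s : K) : Qt a b := t • 1 + et d s * ⟨0, 0, 1, 0⟩

theorem nrd_pq (hd : d ^ 2 = a) (t s : K) : nrd (pq t d s : Qt a b) = t ^ 2 - b * s := by
  have := d_ne hd
  simp [nrd, pq, et, ← hd]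
  field_simp
  ring

theorem pq_et (t s : K) : (pq t d s : Qt a b) * et d s = et d s * pq t (-d) s := by
  ext <;> simp [pq, et, div_neg] <;> ring

/-- The change of the third constant. -/
theorem lm (h : Md π a b c d y) {t : K} (ht : ∀ σ : K ≃ₐ[k] K, σ t = t)
    (hc : (c' : K) = c * ∏ i, (t ^ 2 - b * y i)) : Md π a b c' d y ∧
      Iso ⊤ (mo π d y : _ → WW a b c → _) (mo π d y : _ → WW a b c' → _) := by
  have hd : (-d) ^ 2 = a := by rw [neg_sq, h.sq]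
  have hy : ∀ (σ : K ≃ₐ[k] K) i, σ (y ((π σ).symm i)) = y i := fun σ => congrFun (h.fy σ)
  have h0 : ∀ i, nrd (pq t (-d) (y i) : Qt a b) ≠ 0 := fun i e => c'.ne_zero (by
    rw [hc, Finset.prod_eq_zero (Finset.mem_univ i) ((nrd_pq hd _ _).symm.trans e), mul_zero])
  have e : ∀ (σ : K ≃ₐ[k] K) (x : WW a b c), std π σ (gq c' (fun i => pq t (-d) (y i)) 1 x) =
      gq c' (fun i => pq t (-σ d) (y i)) 1 (std π σ x) := fun σ x => by
    rw [std_gq (h.fa σ) (h.fb σ), map_one]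
    congr 1
    funext i
    rw [pq, cq_add, cq_smul, cq_mul (h.fa σ) (h.fb σ), cq_et, hy, ht, map_neg, pq]
    congr 2 <;> ext <;> simp [cq]
  refine ⟨⟨h.fa, h.fb, fun σ => ?_, h.sq, h.fy, h.nm⟩, gq c' (fun i => pq t (-d) (y i)) 1,
    ⟨_, gq_sm h0 (by simp only [nrd_pq hd, hc, Fin.prod_univ_three]; ring)⟩,
    fun σ _ => Pr.of_eq fun x => ?_⟩
  · rw [hc, map_mul, h.fc, map_prod, ← (π σ).symm.prod_comp]
    simp only [map_sub, map_pow, map_mul, ht, h.fb, hy]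
  · rcases h.pm σ with s | s
    · rw [mo_pos s, mo_pos s, e, s]
    · have s' : σ d ≠ d := s ▸ neg_ne h.sq
      rw [mo_neg s', mo_neg s', e, s, neg_neg, tw, tw, gq_gq, gq_gq]
      simp only [pq_et]

end Vale.Agent.P011LZ
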